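import Mathlib
import Vale.Agent.Lib.P337.Cx.FeasDef

/-!
P337, reduction of ETR to the feasibility of systems of equations: definitions.
-/

namespace Vale.Agent.P337

open Vale.Agent.Lib.Common.PolyTime

/-- raw monomials: sign, binary digits, exponents -/
abbrev RMono := (Bool × List Bool) × List ℕ

/-- raw polynomials -/
abbrev RPoly := List RMono

/-- tokens: `0` and `1` are atoms `p = 0`, `p > 0`; `2`, `3`, `4` are NOT, AND, OR -/
abbrev Tok := ℕ × RPoly

/-- the monomial of a raw monomial -/
def RMono.mono (m : RMono) : Mono := ⟨m.1.1, m.1.2, m.2⟩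

/-- the raw monomial of a monomial -/
def Mono.raw (m : Mono) : RMono := ((m.neg, m.coef), m.exps)

/-- value of a raw polynomial -/
noncomputable def RPoly.eval (p : RPoly) (x : ℕ → ℝ) : ℝ := Poly.eval (List.map RMono.mono p) x

/-- the tokens of a formula, in postfix order -/
def Fml.toks : Fml → List Tok
  | eqz p => [(0, List.map Mono.raw p)]
  | pos p => [(1, List.map Mono.raw p)]
  | not φ => φ.toks ++ [(2, [])]
  | and φ ψ => φ.toks ++ ψ.toks ++ [(3, [])]
  | or φ ψ => φ.toks ++ ψ.toks ++ [(4, [])]

/-- the atoms of a list of tokens -/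
def atomsT (T : List Tok) : List RPoly := (T.filter fun t => decide (t.1 < 2)).map fun t => t.2

/-- the sign condition: `0` zero, `1` positive, other: negative -/
def sgnOK (s : ℕ) (v : ℝ) : Prop := if s = 0 then v = 0 else if s = 1 then 0 < v else v < 0

/-- truth value of a formula if the atoms (in order) have the given signs -/
def Fml.evS : Fml → List ℕ → Bool
  | eqz _, σ => σ.getD 0 0 == 0
  | pos _, σ => σ.getD 0 0 == 1
  | not φ, σ => !(φ.evS σ)
  | and φ ψ, σ => φ.evS σ && ψ.evS (σ.drop (atomsT φ.toks).length)
  | or φ ψ, σ => φ.evS σ || ψ.evS (σ.drop (atomsT φ.toks).length)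

/-- one step of the evaluation of a list of tokens: stack of truth values, remaining signs -/
def evStep (s : List Bool × List ℕ) (t : Tok) : List Bool × List ℕ :=
  if t.1 = 0 then ((s.2.getD 0 0 == 0) :: s.1, s.2.drop 1)
  else if t.1 = 1 then ((s.2.getD 0 0 == 1) :: s.1, s.2.drop 1)
  else if t.1 = 2 then ((!(s.1.getD 0 false)) :: s.1.drop 1, s.2)
  else if t.1 = 3 then ((s.1.getD 1 false && s.1.getD 0 false) :: s.1.drop 2, s.2)
  else ((s.1.getD 1 false || s.1.getD 0 false) :: s.1.drop 2, s.2)

/-- truth value of a list of tokens -/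
def evT (T : List Tok) (σ : List ℕ) : Bool := ((T.foldl evStep ([], σ)).1).getD 0 false

/-- number of variables of a list of raw polynomials -/
def nvars (ps : List RPoly) : ℕ := (ps.map fun p => (p.map fun m : RMono => m.2.length).sum).sum

/-- exponents of a monomial times `y_a ^ 2`, where `y_a` is the variable number `n + a` -/
def padE (n a : ℕ) (e : List ℕ) : List ℕ := (e ++ List.replicate n 0).take n ++ List.replicate a 0 ++ [2]

/-- the equation expressing that `p` has sign `s` -/
def eqn (n a s : ℕ) (p : RPoly) : IPoly :=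
  if s = 0 then p.map fun m : RMono => ((m.1.1, (⟨bval m.1.2⟩ : BNat)), m.2)
  else ((true, (⟨1⟩ : BNat)), []) ::
    p.map fun m : RMono => (((if s = 1 then m.1.1 else !m.1.1), (⟨bval m.1.2⟩ : BNat)), padE n a m.2)

/-- the system expressing that the polynomials `ps` have the signs `σ` -/
def sysT (ps : List RPoly) (σ : List ℕ) : Inst :=
  (nvars ps + ps.length,
    (List.range ps.length).map fun a => eqn (nvars ps) a (σ.getD a 0) (ps.getD a []))

end Vale.Agent.P337
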