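import Mathlib
import Vale.Agent.Lib.P337.Etr.Defs

/-!
P337, reduction of ETR: the functions are computable in polynomial time.
-/

namespace Vale.Agent.P337

open Vale.Agent.Lib.Common.PolyTime

theorem PTs_evStep : PT (fun x : (List Tok × List ℕ) × (List Bool × List ℕ) × Tok =>
    evStep x.2.1 x.2.2) := by
  unfold evStep
  fun_prop

theorem PTs_sz_drop {β : Type} [TEnc β] (l : List β) (n : ℕ) : sz (l.drop n) ≤ sz l :=
  sz_sublist_le (List.drop_sublist _ _)

theorem PTs_sz_evStep (s : List Bool × List ℕ) (t : Tok) :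
    sz (evStep s t) ≤ sz s + sz (5 : ℕ) := by
  obtain ⟨u, v⟩ := s
  have h5 : sz (5 : ℕ) = 11 := by rw [sz_nat]
  have hu : ∀ (b : Bool) (n : ℕ), sz (b :: u.drop n) ≤ sz u + 4 := by
    intro b n
    have h1 := sz_bool_le b
    have h2 := PTs_sz_drop u n
    rw [sz_cons]
    omega
  have hu0 : ∀ (b : Bool), sz (b :: u) ≤ sz u + 4 := by
    intro b
    have h1 := sz_bool_le b
    rw [sz_cons]
    omega
  have hv : sz (v.drop 1) ≤ sz v := PTs_sz_drop v 1
  rw [h5, sz_pair]
  unfold evStep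
  dsimp only
  split_ifs
  · rw [sz_pair]
    dsimp only
    have := hu0 (v.getD 0 0 == 0)
    omega
  · rw [sz_pair]
    dsimp only
    have := hu0 (v.getD 0 0 == 1)
    omega
  · rw [sz_pair]
    dsimp only
    have := hu (!(u.getD 0 false)) 1
    omega
  · rw [sz_pair]
    dsimp only
    have := hu (u.getD 1 false && u.getD 0 false) 2
    omega
  · rw [sz_pair]
    dsimp only
    have := hu (u.getD 1 false || u.getD 0 false) 2
    omega

theorem PT_evT : PT (fun p : List Tok × List ℕ => evT p.1 p.2) := by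
  have h1 : PT (fun p : List Tok × List ℕ => p.1.foldl evStep ([], p.2)) := by
    refine PT.foldl_add (α := List Tok × List ℕ) (step := fun _ s t => evStep s t)
      (l := fun p => p.1) (init := fun p => (([] : List Bool), p.2))
      (h := fun _ _ => (5 : ℕ)) PTs_evStep (PT.fst PT.id)
      (PT.pair (PT.const _) (PT.snd PT.id)) (PT.const _) ?_
    intro _ s b _
    exact PTs_sz_evStep s b
  exact PT.getD (PT.fst h1) (PT.const 0) (PT.const false)

theorem PTs_nvars {α : Type} [TEnc α] {f : α → List RPoly} (hf : PT f) :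
    PT (fun a => nvars (f a)) := by
  unfold nvars
  have h1 : PT (fun x : (α × RPoly) × RMono => x.2.2.length) := PT.length (PT.snd (PT.snd PT.id))
  have h2 : PT (fun x : α × RPoly => (x.2.map fun m : RMono => m.2.length).sum) :=
    PT.sum (PT.map (f := fun _ (m : RMono) => m.2.length) h1 (PT.snd PT.id))
  exact PT.sum (PT.map (f := fun _ (p : RPoly) => (p.map fun m : RMono => m.2.length).sum) h2 hf)

theorem PTs_padE {α : Type} [TEnc α] {n a : α → ℕ} {e : α → List ℕ} (hn : PT n) (ha : PT a)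
    (he : PT e) : PT (fun x => padE (n x) (a x) (e x)) := by
  unfold padE
  fun_prop

theorem PTs_eqn {α : Type} [TEnc α] {n a s : α → ℕ} {p : α → RPoly} (hn : PT n) (ha : PT a)
    (hs : PT s) (hp : PT p) : PT (fun x => eqn (n x) (a x) (s x) (p x)) := by
  unfold eqn
  have hm : PT (fun y : α × RMono => y.2) := PT.snd PT.id
  have hb : PT (fun y : α × RMono => (⟨bval y.2.1.2⟩ : BNat)) :=
    PT_ofBits (PT.snd (PT.fst hm))
  have h1 : PT (fun y : α × RMono => (((y.2.1.1, (⟨bval y.2.1.2⟩ : BNat)), y.2.2) : IMono)) :=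
    PT.pair (PT.pair (PT.fst (PT.fst hm)) hb) (PT.snd hm)
  have h2 : PT (fun y : α × RMono =>
      ((((if s y.1 = 1 then y.2.1.1 else !y.2.1.1), (⟨bval y.2.1.2⟩ : BNat)),
        padE (n y.1) (a y.1) y.2.2) : IMono)) := by
    refine PT.pair (PT.pair ?_ hb) (PTs_padE (hn.comp (PT.fst PT.id)) (ha.comp (PT.fst PT.id))
      (PT.snd hm))
    exact PT.ite (PT.decide_eq (hs.comp (PT.fst PT.id)) (PT.const 1)) (PT.fst (PT.fst hm))
      (PT.not (PT.fst (PT.fst hm)))
  refine PT.ite (PT.decide_eq hs (PT.const 0)) ?_ ?_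
  · exact PT.map (f := fun _ (m : RMono) => (((m.1.1, (⟨bval m.1.2⟩ : BNat)), m.2) : IMono)) h1 hp
  · refine PT.cons (PT.const _) ?_
    exact PT.map (f := fun x (m : RMono) =>
      ((((if s x = 1 then m.1.1 else !m.1.1), (⟨bval m.1.2⟩ : BNat)),
        padE (n x) (a x) m.2) : IMono)) h2 hp

theorem PT_sysT : PT (fun p : List RPoly × List ℕ => sysT p.1 p.2) := by
  unfold sysT
  have hn : PT (fun p : List RPoly × List ℕ => nvars p.1) := PTs_nvars (PT.fst PT.id)
  refine PT.pair (PT.add hn (PT.length (PT.fst PT.id))) ?_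
  have h1 : PT (fun y : (List RPoly × List ℕ) × ℕ =>
      eqn (nvars y.1.1) y.2 (y.1.2.getD y.2 0) (y.1.1.getD y.2 [])) :=
    PTs_eqn (hn.comp (PT.fst PT.id)) (PT.snd PT.id)
      (PT.getD (PT.snd (PT.fst PT.id)) (PT.snd PT.id) (PT.const 0))
      (PT.getD (PT.fst (PT.fst PT.id)) (PT.snd PT.id) (PT.const []))
  exact PT.map (f := fun (p : List RPoly × List ℕ) a =>
    eqn (nvars p.1) a (p.2.getD a 0) (p.1.getD a [])) h1 (PT.range (PT.length (PT.fst PT.id)))

theorem PT_atomsT : PT atomsT := by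
  have h1 : PT (fun y : List Tok × Tok => decide (y.2.1 < 2)) :=
    PT.decide_lt (PT.fst (PT.snd PT.id)) (PT.const 2)
  have h2 : PT (fun T : List Tok => T.filter fun t => decide (t.1 < 2)) :=
    PT.filter (f := fun _ (t : Tok) => decide (t.1 < 2)) h1 PT.id
  have h3 : PT (fun y : List Tok × Tok => y.2.2) := PT.snd (PT.snd PT.id)
  exact PT.map (f := fun _ (t : Tok) => t.2) h3 h2

end Vale.Agent.P337
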