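import Mathlib
import Vale.Agent.Lib.P337.Etr.Defs
import Vale.Agent.Lib.Common.PolyTime.FoldTools

/-!
P337, reduction of ETR: the parser.
-/

namespace Vale.Agent.P337

open Vale.Agent.Lib.Common.PolyTime

/-! ### chopping a bit string into blocks of four -/

/-- one step of chopping: finished blocks, current block -/
def chopStep (s : List (List Bool) × List Bool) (b : Bool) : List (List Bool) × List Bool :=
  if s.2.length = 3 then (s.1 ++ [s.2 ++ [b]], []) else (s.1, s.2 ++ [b])

/-- blocks of four bits -/
def chop (w : List Bool) : List (List Bool) := (w.foldl chopStep ([], [])).1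

theorem PT_chop : PT chop := by
  have h1 : PT (fun a : List Bool => a.foldl ((fun (_ : List Bool)
      (s : List (List Bool) × List Bool) (b : Bool) => chopStep s b) a) ([], [])) := by
    refine PT.foldl_add (l := fun a => a) (init := fun _ => ([], []))
      (h := fun (_ : List Bool) (_ : Bool) => (20 : ℕ)) ?_ PT.id (PT.const _) (PT.const _) ?_
    · unfold chopStep
      fun_prop
    · intro a s b _
      obtain ⟨B, p⟩ := s
      have hb := sz_bool_le b
      have e1 := sz_append p [b]
      have e2 : sz [b] = sz b + sz ([] : List Bool) + 1 := sz_cons _ _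
      have e3 : sz ([] : List Bool) = 1 := rfl
      have e4 := sz_nat 20
      simp only [chopStep]
      split_ifs with h
      · have e5 := sz_append B [p ++ [b]]
        have e6 : sz [p ++ [b]] = sz (p ++ [b]) + sz ([] : List (List Bool)) + 1 := sz_cons _ _
        have e7 : sz ([] : List (List Bool)) = 1 := rfl
        rw [sz_pair, sz_pair]
        omega
      · rw [sz_pair, sz_pair]
        omega
  exact PT.fst h1

theorem foldl_chop_code (k : Sym) (B : List (List Bool)) :
    (Sym.code k).foldl chopStep (B, []) = (B ++ [Sym.code k], []) := by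
  cases k <;> rfl

theorem foldl_chop (w : List Sym) : ∀ B : List (List Bool),
    (w.flatMap Sym.code).foldl chopStep (B, []) = (B ++ w.map Sym.code, []) := by
  induction w with
  | nil => intro B; simp
  | cons k w ih =>
    intro B
    rw [List.flatMap_cons, List.foldl_append, foldl_chop_code, ih, List.map_cons,
      List.append_assoc, List.singleton_append]

theorem chop_flatMap (w : List Sym) : chop (w.flatMap Sym.code) = w.map Sym.code := by
  unfold chop
  rw [foldl_chop, List.nil_append]

/-! ### the parser on symbols -/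

/-- state of the parser: tokens, polynomial; is there a current monomial, its sign, digits,
exponents, counter -/
abbrev PSt := (List Tok × RPoly) × ((Bool × Bool) × (List Bool × (List ℕ × ℕ)))

/-- the current polynomial with the current monomial -/
def pFlush (s : PSt) : RPoly :=
  bif s.2.1.1 then s.1.2 ++ [((s.2.1.2, s.2.2.1), s.2.2.2.1)] else s.1.2

/-- one step of the parser -/
def pStep (s : PSt) (k : List Bool) : PSt :=
  if k = [false, false, false, false] then ((s.1.1, pFlush s), ((true, false), ([], ([], 0))))
  else if k = [false, false, false, true] then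
    ((s.1.1, pFlush s), ((true, true), ([], ([], 0))))
  else if k = [false, false, true, false] then (s.1, (s.2.1, (s.2.2.1 ++ [false], s.2.2.2)))
  else if k = [false, false, true, true] then (s.1, (s.2.1, (s.2.2.1 ++ [true], s.2.2.2)))
  else if k = [false, true, false, false] then
    (s.1, (s.2.1, (s.2.2.1, (s.2.2.2.1, s.2.2.2.2 + 1))))
  else if k = [false, true, false, true] then
    (s.1, (s.2.1, (s.2.2.1, (s.2.2.2.1 ++ [s.2.2.2.2], 0))))
  else if k = [false, true, true, false] then
    ((s.1.1 ++ [(0, pFlush s)], []), ((false, false), ([], ([], 0))))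
  else if k = [false, true, true, true] then
    ((s.1.1 ++ [(1, pFlush s)], []), ((false, false), ([], ([], 0))))
  else if k = [true, false, false, false] then ((s.1.1 ++ [(2, [])], s.1.2), s.2)
  else if k = [true, false, false, true] then ((s.1.1 ++ [(3, [])], s.1.2), s.2)
  else ((s.1.1 ++ [(4, [])], s.1.2), s.2)

/-- start of the parser after the tokens `T` -/
def pIni (T : List Tok) : PSt := ((T, []), ((false, false), ([], ([], 0))))

theorem PT_pFlush : PT pFlush := by
  unfold pFlush
  fun_prop

theorem PT_pStep : PT (fun x : PSt × List Bool => pStep x.1 x.2) := by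
  have hf : PT (fun x : PSt × List Bool => pFlush x.1) := PT_pFlush.comp (PT.fst PT.id)
  unfold pStep
  fun_prop

theorem sz_snoc {α : Type} [TEnc α] (l : List α) (a : α) : sz (l ++ [a]) = sz l + sz a + 1 := by
  have e5 := sz_append l [a]
  have e6 : sz [a] = sz a + sz ([] : List α) + 1 := sz_cons _ _
  have e7 : sz ([] : List α) = 1 := rfl
  omega

theorem sz_pFlush (s : PSt) :
    sz (pFlush s) ≤ sz s.1.2 + sz s.2.1.2 + sz s.2.2.1 + sz s.2.2.2.1 + 3 := by
  unfold pFlush
  cases s.2.1.1
  · simp only [cond_false]
    omega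
  · simp only [cond_true]
    rw [sz_snoc, sz_pair, sz_pair]
    omega

theorem sz_st (T : List Tok) (P : RPoly) (pr sg : Bool) (dg : List Bool) (ex : List ℕ) (c : ℕ) :
    sz (((T, P), ((pr, sg), (dg, (ex, c)))) : PSt) =
      sz T + sz P + sz pr + sz sg + sz dg + sz ex + sz c + 6 := by
  rw [sz_pair, sz_pair, sz_pair, sz_pair, sz_pair, sz_pair]
  omega

theorem sz_fresh (T : List Tok) (P : RPoly) (b1 b2 : Bool) :
    sz (((T, P), ((b1, b2), ([], ([], 0)))) : PSt) ≤ sz T + sz P + 15 := by
  rw [sz_st]
  have h8 : sz ([] : List Bool) = 1 := rfl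
  have h9 : sz ([] : List ℕ) = 1 := rfl
  have h3 : sz (0 : ℕ) = 1 := rfl
  have h14 := sz_bool_le b1
  have h15 := sz_bool_le b2
  omega

theorem sz_pStep (s : PSt) (k : List Bool) : sz (pStep s k) ≤ sz s + 50 := by
  have hfl := sz_pFlush s
  obtain ⟨⟨T, P⟩, ⟨pr, sg⟩, dg, ex, c⟩ := s
  simp only at hfl
  have hs := sz_st T P pr sg dg ex c
  have h0 := sz_pos P
  have h10 : sz ([] : RPoly) = 1 := rfl
  unfold pStep
  split_ifs
  · have h := sz_fresh T (pFlush ((T, P), (pr, sg), dg, ex, c)) true false
    simp only at h ⊢
    omega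
  · have h := sz_fresh T (pFlush ((T, P), (pr, sg), dg, ex, c)) true true
    simp only at h ⊢
    omega
  · have h := sz_st T P pr sg (dg ++ [false]) ex c
    have h' := sz_snoc dg false
    have h'' := sz_bool_le false
    simp only at h ⊢
    omega
  · have h := sz_st T P pr sg (dg ++ [true]) ex c
    have h' := sz_snoc dg true
    have h'' := sz_bool_le true
    simp only at h ⊢
    omega
  · have h := sz_st T P pr sg dg ex (c + 1)
    have h' := sz_nat c
    have h'' := sz_nat (c + 1)
    simp only at h ⊢
    omega
  · have h := sz_st T P pr sg dg (ex ++ [c]) 0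
    have h' := sz_snoc ex c
    have h'' := sz_nat 0
    simp only at h ⊢
    omega
  · have h := sz_fresh (T ++ [(0, pFlush ((T, P), (pr, sg), dg, ex, c))]) [] false false
    have h' := sz_snoc T ((0, pFlush ((T, P), (pr, sg), dg, ex, c)) : Tok)
    have h'' := sz_pair 0 (pFlush ((T, P), (pr, sg), dg, ex, c))
    have h3 := sz_nat 0
    simp only at h ⊢
    omega
  · have h := sz_fresh (T ++ [(1, pFlush ((T, P), (pr, sg), dg, ex, c))]) [] false false
    have h' := sz_snoc T ((1, pFlush ((T, P), (pr, sg), dg, ex, c)) : Tok)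
    have h'' := sz_pair 1 (pFlush ((T, P), (pr, sg), dg, ex, c))
    have h3 := sz_nat 1
    simp only at h ⊢
    omega
  · have h := sz_st (T ++ [(2, [])]) P pr sg dg ex c
    have h' := sz_snoc T ((2, []) : Tok)
    have h'' := sz_pair 2 ([] : RPoly)
    have h3 := sz_nat 2
    simp only at h ⊢
    omega
  · have h := sz_st (T ++ [(3, [])]) P pr sg dg ex c
    have h' := sz_snoc T ((3, []) : Tok)
    have h'' := sz_pair 3 ([] : RPoly)
    have h3 := sz_nat 3
    simp only at h ⊢
    omega
  · have h := sz_st (T ++ [(4, [])]) P pr sg dg ex c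
    have h' := sz_snoc T ((4, []) : Tok)
    have h'' := sz_pair 4 ([] : RPoly)
    have h3 := sz_nat 4
    simp only at h ⊢
    omega

/-- the parser -/
def parse (w : List Bool) : List Tok := ((chop w).foldl pStep (pIni [])).1.1

theorem PT_parse : PT parse := by
  have h1 : PT (fun a : List Bool => (chop a).foldl ((fun (_ : List Bool)
      (s : PSt) (b : List Bool) => pStep s b) a) (pIni [])) := by
    refine PT.foldl_add (l := chop) (init := fun _ => pIni [])
      (h := fun (_ : List Bool) (_ : List Bool) => (50 : ℕ)) ?_ PT_chop (PT.const _)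
      (PT.const _) ?_
    · have := PT_pStep.comp (g := fun x : List Bool × PSt × List Bool => x.2) (by fun_prop)
      exact this
    · intro a s b _
      refine (sz_pStep s b).trans ?_
      have e4 := sz_nat 50
      omega
  exact PT.fst (PT.fst h1)

/-! ### correctness -/

/-- running the parser on a word -/
def pRun (s : PSt) (w : List Sym) : PSt := (w.map Sym.code).foldl pStep s

theorem pRun_append (s : PSt) (v w : List Sym) : pRun s (v ++ w) = pRun (pRun s v) w := by
  unfold pRun
  rw [List.map_append, List.foldl_append]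

theorem pRun_cons (s : PSt) (k : Sym) (w : List Sym) :
    pRun s (k :: w) = pRun (pStep s (Sym.code k)) w := rfl

theorem pRun_nil (s : PSt) : pRun s [] = s := rfl

theorem pRun_digits (T : List Tok) (P : RPoly) (x : Bool × Bool) (e : List ℕ × ℕ)
    (l : List Bool) : ∀ d : List Bool,
    pRun ((T, P), (x, (d, e))) (l.map fun b => if b then Sym.one else Sym.zero) =
      ((T, P), (x, (d ++ l, e))) := by
  induction l with
  | nil => intro d; simp [pRun_nil]
  | cons b l ih =>
    intro d
    rw [List.map_cons, pRun_cons]
    have : pStep ((T, P), (x, (d, e))) (Sym.code (if b then Sym.one else Sym.zero)) =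
        ((T, P), (x, (d ++ [b], e))) := by
      cases b <;> rfl
    rw [this, ih, List.append_assoc, List.singleton_append]

theorem pRun_ticks (T : List Tok) (P : RPoly) (x : Bool × Bool) (d : List Bool) (e : List ℕ)
    (n : ℕ) : ∀ c : ℕ, pRun ((T, P), (x, (d, (e, c)))) (List.replicate n Sym.tick) =
      ((T, P), (x, (d, (e, c + n)))) := by
  induction n with
  | zero => intro c; simp [pRun_nil]
  | succ n ih =>
    intro c
    rw [List.replicate_succ, pRun_cons]
    have : pStep ((T, P), (x, (d, (e, c)))) (Sym.code Sym.tick) =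
        ((T, P), (x, (d, (e, c + 1)))) := rfl
    rw [this, ih, add_assoc, add_comm 1 n]

theorem pRun_exps (T : List Tok) (P : RPoly) (x : Bool × Bool) (d : List Bool)
    (l : List ℕ) : ∀ e : List ℕ,
    pRun ((T, P), (x, (d, (e, 0)))) (l.flatMap fun n => List.replicate n Sym.tick ++ [Sym.sep]) =
      ((T, P), (x, (d, (e ++ l, 0)))) := by
  induction l with
  | nil => intro e; simp [pRun_nil]
  | cons n l ih =>
    intro e
    rw [List.flatMap_cons, pRun_append, pRun_append, pRun_ticks]
    have : pRun ((T, P), (x, (d, (e, 0 + n)))) [Sym.sep] =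
        ((T, P), (x, (d, (e ++ [n], 0)))) := by
      rw [zero_add]
      rfl
    rw [this, ih, List.append_assoc, List.singleton_append]

theorem pRun_mono (s : PSt) (m : Mono) :
    pRun s (Mono.word m) =
      ((s.1.1, pFlush s), ((true, m.neg), (m.coef, (m.exps, 0)))) := by
  obtain ⟨neg, coef, exps⟩ := m
  unfold Mono.word
  rw [pRun_append, pRun_cons]
  have : pStep s (Sym.code (if neg then Sym.minus else Sym.plus)) =
      ((s.1.1, pFlush s), ((true, neg), ([], ([], 0)))) := by
    cases neg <;> rfl
  simp only at this ⊢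
  rw [this, pRun_digits, pRun_exps, List.nil_append, List.nil_append]

theorem pRun_poly (p : Poly) : ∀ s : PSt,
    (pRun s (Poly.word p)).1.1 = s.1.1 ∧
      pFlush (pRun s (Poly.word p)) = pFlush s ++ List.map Mono.raw p := by
  induction p with
  | nil => intro s; exact ⟨rfl, (List.append_nil _).symm⟩
  | cons m p ih =>
    intro s
    have e : Poly.word (m :: p) = Mono.word m ++ Poly.word p := rfl
    rw [e, pRun_append, pRun_mono]
    obtain ⟨h1, h2⟩ := ih ((s.1.1, pFlush s), ((true, m.neg), (m.coef, (m.exps, 0))))
    refine ⟨h1, ?_⟩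
    rw [h2, List.map_cons]
    simp [pFlush, Mono.raw]

theorem pRun_fml (φ : Fml) : ∀ T : List Tok, pRun (pIni T) φ.word = pIni (T ++ φ.toks) := by
  induction φ with
  | eqz p =>
    intro T
    have e : (Fml.eqz p).word = Poly.word p ++ [Sym.eqz] := rfl
    rw [e, pRun_append]
    obtain ⟨h1, h2⟩ := pRun_poly p (pIni T)
    have : pRun (pRun (pIni T) (Poly.word p)) [Sym.eqz] =
        (((pRun (pIni T) (Poly.word p)).1.1 ++ [(0, pFlush (pRun (pIni T) (Poly.word p)))], []),
          ((false, false), ([], ([], 0)))) := rfl
    rw [this, h1, h2]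
    rfl
  | pos p =>
    intro T
    have e : (Fml.pos p).word = Poly.word p ++ [Sym.pos] := rfl
    rw [e, pRun_append]
    obtain ⟨h1, h2⟩ := pRun_poly p (pIni T)
    have : pRun (pRun (pIni T) (Poly.word p)) [Sym.pos] =
        (((pRun (pIni T) (Poly.word p)).1.1 ++ [(1, pFlush (pRun (pIni T) (Poly.word p)))], []),
          ((false, false), ([], ([], 0)))) := rfl
    rw [this, h1, h2]
    rfl
  | not φ ih =>
    intro T
    have e : (Fml.not φ).word = φ.word ++ [Sym.not] := rfl
    have e2 : (Fml.not φ).toks = φ.toks ++ [(2, [])] := rfl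
    rw [e, pRun_append, ih, e2, ← List.append_assoc]
    rfl
  | and φ ψ ih1 ih2 =>
    intro T
    have e : (Fml.and φ ψ).word = φ.word ++ ψ.word ++ [Sym.and] := rfl
    have e2 : (Fml.and φ ψ).toks = φ.toks ++ ψ.toks ++ [(3, [])] := rfl
    rw [e, pRun_append, pRun_append, ih1, ih2, e2, ← List.append_assoc, ← List.append_assoc]
    rfl
  | or φ ψ ih1 ih2 =>
    intro T
    have e : (Fml.or φ ψ).word = φ.word ++ ψ.word ++ [Sym.or] := rfl
    have e2 : (Fml.or φ ψ).toks = φ.toks ++ ψ.toks ++ [(4, [])] := rfl
    rw [e, pRun_append, pRun_append, ih1, ih2, e2, ← List.append_assoc, ← List.append_assoc]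
    rfl

/-- a polynomial time parser, correct on the encodings of formulas -/
theorem exists_parse : ∃ parse : List Bool → List Tok, PT parse ∧
    ∀ φ : Fml, parse φ.bits = φ.toks := by
  refine ⟨parse, PT_parse, fun φ => ?_⟩
  unfold parse Fml.bits
  rw [chop_flatMap]
  have h := pRun_fml φ []
  unfold pRun at h
  rw [h, List.nil_append]
  rfl

end Vale.Agent.P337
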