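import Mathlib
import Vale.Agent.Lib.P337.Etr.Defs

/-!
P337, reduction of ETR: semantics.
-/

namespace Vale.Agent.P337

open Vale.Agent.Lib.Common.PolyTime

theorem Sem_atomsT_append (T T' : List Tok) : atomsT (T ++ T') = atomsT T ++ atomsT T' := by
  unfold atomsT
  rw [List.filter_append, List.map_append]

theorem Sem_atomsT_op (k : ℕ) (hk : 2 ≤ k) : atomsT [(k, [])] = [] := by
  unfold atomsT
  rw [List.filter_cons_of_neg]
  · rfl
  · simp only [decide_eq_true_eq, not_lt]
    exact hk

theorem Sem_foldl (φ : Fml) : ∀ (st : List Bool) (σ : List ℕ),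
    φ.toks.foldl evStep (st, σ) = (φ.evS σ :: st, σ.drop (atomsT φ.toks).length) := by
  induction φ with
  | eqz p =>
    intro st σ
    rfl
  | pos p =>
    intro st σ
    rfl
  | not φ ih =>
    intro st σ
    rw [Fml.toks, List.foldl_append, ih, Sem_atomsT_append, Sem_atomsT_op 2 le_rfl,
      List.append_nil]
    rfl
  | and φ ψ ih1 ih2 =>
    intro st σ
    rw [Fml.toks, List.foldl_append, List.foldl_append, ih1, ih2, Sem_atomsT_append,
      Sem_atomsT_append, Sem_atomsT_op 3 (by norm_num), List.append_nil, List.length_append,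
      List.drop_drop]
    rfl
  | or φ ψ ih1 ih2 =>
    intro st σ
    rw [Fml.toks, List.foldl_append, List.foldl_append, ih1, ih2, Sem_atomsT_append,
      Sem_atomsT_append, Sem_atomsT_op 4 (by norm_num), List.append_nil, List.length_append,
      List.drop_drop]
    rfl

theorem evT_toks (φ : Fml) (σ : List ℕ) (h : (atomsT φ.toks).length ≤ σ.length) :
    evT φ.toks σ = φ.evS σ := by
  unfold evT
  rw [Sem_foldl]
  rfl

theorem Sem_eval_raw (p : Poly) (x : ℕ → ℝ) :
    RPoly.eval (List.map Mono.raw p) x = Poly.eval p x := by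
  unfold RPoly.eval
  rw [List.map_map]
  have h : RMono.mono ∘ Mono.raw = id := by
    funext m
    rfl
  rw [h, List.map_id]

theorem Sem_getD_left {α : Type} (a b : List α) (i : ℕ) (hi : i < a.length) (d : α) :
    (a ++ b).getD i d = a.getD i d := by
  rw [List.getD_eq_getElem?_getD, List.getD_eq_getElem?_getD, List.getElem?_append_left hi]

theorem Sem_getD_right {α : Type} (a b : List α) (i : ℕ) (d : α) :
    (a ++ b).getD (a.length + i) d = b.getD i d := by
  rw [List.getD_eq_getElem?_getD, List.getD_eq_getElem?_getD,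
    List.getElem?_append_right (Nat.le_add_right _ _), Nat.add_sub_cancel_left]

theorem Sem_getD_drop {α : Type} (a : List α) (m i : ℕ) (d : α) :
    (a.drop m).getD i d = a.getD (m + i) d := by
  rw [List.getD_eq_getElem?_getD, List.getD_eq_getElem?_getD, List.getElem?_drop]

/-- the truth value given by the actual signs of the atoms is the truth value -/
theorem Sem_holds (x : ℕ → ℝ) (φ : Fml) : ∀ σ : List ℕ,
    (∀ i < (atomsT φ.toks).length,
      sgnOK (σ.getD i 0) (RPoly.eval ((atomsT φ.toks).getD i []) x)) →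
    (φ.evS σ = true ↔ φ.holds x) := by
  induction φ with
  | eqz p =>
    intro σ h
    have h1 := h 0 (Nat.zero_lt_succ _)
    have h2 : (atomsT (Fml.eqz p).toks).getD 0 [] = List.map Mono.raw p := rfl
    rw [h2, Sem_eval_raw] at h1
    simp only [Fml.evS, Fml.holds, beq_iff_eq]
    unfold sgnOK at h1
    split_ifs at h1 with h3 h4
    · exact ⟨fun _ => h1, fun _ => h3⟩
    · exact ⟨fun h => absurd h h3, fun h => absurd h h1.ne'⟩
    · exact ⟨fun h => absurd h h3, fun h => absurd h h1.ne⟩
  | pos p =>
    intro σ h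
    have h1 := h 0 (Nat.zero_lt_succ _)
    have h2 : (atomsT (Fml.pos p).toks).getD 0 [] = List.map Mono.raw p := rfl
    rw [h2, Sem_eval_raw] at h1
    simp only [Fml.evS, Fml.holds, beq_iff_eq]
    unfold sgnOK at h1
    split_ifs at h1 with h3 h4
    · rw [h3, h1]
      exact ⟨fun h => absurd h (by norm_num), fun h => absurd h (lt_irrefl _)⟩
    · exact ⟨fun _ => h1, fun _ => h4⟩
    · exact ⟨fun h => absurd h h4, fun h => absurd h (not_lt.mpr h1.le)⟩
  | not φ ih =>
    intro σ h
    have h1 : atomsT (Fml.not φ).toks = atomsT φ.toks := by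
      rw [Fml.toks, Sem_atomsT_append, Sem_atomsT_op 2 le_rfl, List.append_nil]
    rw [h1] at h
    have h2 := ih σ h
    simp only [Fml.evS, Fml.holds, Bool.not_eq_true', ← h2, Bool.not_eq_true]
  | and φ ψ ih1 ih2 =>
    intro σ h
    have h1 : atomsT (Fml.and φ ψ).toks = atomsT φ.toks ++ atomsT ψ.toks := by
      rw [Fml.toks, Sem_atomsT_append, Sem_atomsT_append, Sem_atomsT_op 3 (by norm_num),
        List.append_nil]
    rw [h1, List.length_append] at h
    have h2 := ih1 σ (fun i hi => by
      have := h i (by omega)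
      rwa [Sem_getD_left _ _ _ hi] at this)
    have h3 := ih2 (σ.drop (atomsT φ.toks).length) (fun i hi => by
      have := h ((atomsT φ.toks).length + i) (by omega)
      rwa [Sem_getD_right, ← Sem_getD_drop] at this)
    simp only [Fml.evS, Fml.holds, Bool.and_eq_true, h2, h3]
  | or φ ψ ih1 ih2 =>
    intro σ h
    have h1 : atomsT (Fml.or φ ψ).toks = atomsT φ.toks ++ atomsT ψ.toks := by
      rw [Fml.toks, Sem_atomsT_append, Sem_atomsT_append, Sem_atomsT_op 4 (by norm_num),
        List.append_nil]
    rw [h1, List.length_append] at h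
    have h2 := ih1 σ (fun i hi => by
      have := h i (by omega)
      rwa [Sem_getD_left _ _ _ hi] at this)
    have h3 := ih2 (σ.drop (atomsT φ.toks).length) (fun i hi => by
      have := h ((atomsT φ.toks).length + i) (by omega)
      rwa [Sem_getD_right, ← Sem_getD_drop] at this)
    simp only [Fml.evS, Fml.holds, Bool.or_eq_true, h2, h3]

/-- the code of the sign of a real number -/
noncomputable def Sem_code (v : ℝ) : ℕ := if v = 0 then 0 else if 0 < v then 1 else 2

theorem Sem_code_lt (v : ℝ) : Sem_code v < 3 := by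
  unfold Sem_code
  split_ifs <;> norm_num

theorem Sem_code_ok (v : ℝ) : sgnOK (Sem_code v) v := by
  unfold Sem_code sgnOK
  by_cases h1 : v = 0
  · rw [if_pos h1, if_pos rfl]
    exact h1
  · by_cases h2 : 0 < v
    · rw [if_neg h1, if_pos h2, if_neg (by norm_num), if_pos rfl]
      exact h2
    · rw [if_neg h1, if_neg h2, if_neg (by norm_num), if_neg (by norm_num)]
      exact lt_of_le_of_ne (not_lt.mp h2) h1

/-- satisfiability through sign conditions -/
theorem sat_iff (φ : Fml) : φ.Sat ↔ ∃ σ : List ℕ, σ.length = (atomsT φ.toks).length ∧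
    (∀ s ∈ σ, s < 3) ∧ φ.evS σ = true ∧
      ∃ x : ℕ → ℝ, ∀ i < σ.length, sgnOK (σ.getD i 0) (RPoly.eval ((atomsT φ.toks).getD i []) x) := by
  constructor
  · rintro ⟨x, hx⟩
    have hok : ∀ i < (atomsT φ.toks).length,
        sgnOK (((atomsT φ.toks).map fun p => Sem_code (RPoly.eval p x)).getD i 0)
          (RPoly.eval ((atomsT φ.toks).getD i []) x) := by
      intro i hi
      have h1 : ((atomsT φ.toks).map fun p => Sem_code (RPoly.eval p x)).getD i 0 =
          Sem_code (RPoly.eval ((atomsT φ.toks).getD i []) x) := by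
        rw [List.getD_eq_getElem?_getD, List.getD_eq_getElem?_getD, List.getElem?_map,
          List.getElem?_eq_getElem hi]
        rfl
      rw [h1]
      exact Sem_code_ok _
    refine ⟨(atomsT φ.toks).map fun p => Sem_code (RPoly.eval p x), by rw [List.length_map],
      ?_, ?_, x, ?_⟩
    · intro s hs
      rw [List.mem_map] at hs
      obtain ⟨p, _, rfl⟩ := hs
      exact Sem_code_lt _
    · rw [Sem_holds x φ _ hok]
      exact hx
    · rw [List.length_map]
      exact hok
  · rintro ⟨σ, hlen, _, hev, x, hx⟩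
    refine ⟨x, ?_⟩
    rw [hlen] at hx
    rwa [Sem_holds x φ σ hx] at hev

end Vale.Agent.P337
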