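import Mathlib
import Vale.Agent.Lib.P337.Etr.Defs

/-!
P337, reduction of ETR: serialization.
-/

namespace Vale.Agent.P337

open Vale.Agent.Lib.Common.PolyTime

/-- bits of an exponent -/
private def serExp (n : ℕ) : List Bool :=
  ((List.range n).flatMap fun _ => Sym.tick.code) ++ Sym.sep.code

/-- bits of a raw monomial -/
private def serMono (m : RMono) : List Bool :=
  (bif m.1.1 then Sym.minus.code else Sym.plus.code) ++
    ((m.1.2.flatMap fun b => bif b then Sym.one.code else Sym.zero.code) ++ m.2.flatMap serExp)

/-- bits of the kind of a token -/
private def serKind (s : ℕ) : List Bool :=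
  bif s == 0 then Sym.eqz.code else bif s == 1 then Sym.pos.code else bif s == 2 then Sym.not.code
    else bif s == 3 then Sym.and.code else Sym.or.code

/-- bits of a token -/
private def serTok (t : Tok) : List Bool := t.2.flatMap serMono ++ serKind t.1

private theorem serExp_eq (n : ℕ) :
    serExp n = (List.replicate n Sym.tick ++ [Sym.sep]).flatMap Sym.code := by
  have h : ∀ n : ℕ, ((List.range n).flatMap fun _ => Sym.tick.code) =
      (List.replicate n Sym.tick).flatMap Sym.code := by
    intro n
    induction n with
    | zero => rfl
    | succ n ih =>
      rw [List.range_succ, List.flatMap_append, ih, List.replicate_succ', List.flatMap_append]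
      rfl
  rw [serExp, h, List.flatMap_append]
  rfl

private theorem serMono_eq (m : Mono) : serMono m.raw = m.word.flatMap Sym.code := by
  have h1 : ∀ l : List Bool, (l.flatMap fun b => bif b then Sym.one.code else Sym.zero.code) =
      (l.map fun b => if b then Sym.one else Sym.zero).flatMap Sym.code := by
    intro l
    induction l with
    | nil => rfl
    | cons b l ih =>
      rw [List.flatMap_cons, ih, List.map_cons, List.flatMap_cons]
      cases b <;> rfl
  have h2 : ∀ l : List ℕ, l.flatMap serExp =
      (l.flatMap fun n => List.replicate n Sym.tick ++ [Sym.sep]).flatMap Sym.code := by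
    intro l
    induction l with
    | nil => rfl
    | cons n l ih =>
      rw [List.flatMap_cons, ih, List.flatMap_cons, List.flatMap_append, serExp_eq]
  obtain ⟨neg, coef, exps⟩ := m
  rw [Mono.word, List.cons_append, List.flatMap_cons, List.flatMap_append, ← h1, ← h2]
  simp only [serMono, Mono.raw]
  cases neg <;> rfl

private theorem serPoly_eq (p : Poly) :
    (List.map Mono.raw p).flatMap serMono = (Poly.word p).flatMap Sym.code := by
  unfold Poly.word
  induction p with
  | nil => rfl
  | cons m p ih =>
    rw [List.map_cons, List.flatMap_cons, ih, List.flatMap_cons, List.flatMap_append, serMono_eq]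

/-- the encoding can be recomputed from the tokens -/
theorem exists_ser : ∃ ser : List Tok → List Bool, PT ser ∧ ∀ φ : Fml, ser φ.toks = φ.bits := by
  refine ⟨fun T => T.flatMap serTok, ?_, ?_⟩
  · have h1 : PT serExp := by
      unfold serExp
      fun_prop
    have h2 : PT serMono := by
      unfold serMono
      have h3 : PT (fun m : RMono => m.2.flatMap serExp) :=
        PT.flatMap (f := fun _ : RMono => serExp) (h1.comp (PT.snd PT.id)) (PT.snd PT.id)
      have h4 : PT (fun m : RMono =>
          m.1.2.flatMap fun b => bif b then Sym.one.code else Sym.zero.code) := by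
        refine PT.flatMap (f := fun (_ : RMono) b => bif b then Sym.one.code else Sym.zero.code)
          ?_ (PT.snd (PT.fst PT.id))
        exact PT.bif (PT.snd PT.id) (PT.const _) (PT.const _)
      have h5 : PT (fun m : RMono => bif m.1.1 then Sym.minus.code else Sym.plus.code) :=
        PT.bif (PT.fst (PT.fst PT.id)) (PT.const _) (PT.const _)
      exact PT.append h5 (PT.append h4 h3)
    have h6 : PT serKind := by
      unfold serKind
      fun_prop
    have h7 : PT serTok := by
      unfold serTok
      have h8 : PT (fun t : Tok => t.2.flatMap serMono) :=
        PT.flatMap (f := fun _ : Tok => serMono) (h2.comp (PT.snd PT.id)) (PT.snd PT.id)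
      exact PT.append h8 (h6.comp (PT.fst PT.id))
    exact PT.flatMap (f := fun _ : List Tok => serTok) (h7.comp (PT.snd PT.id)) PT.id
  · intro φ
    unfold Fml.bits
    induction φ with
    | eqz p =>
      change serTok (0, List.map Mono.raw p) ++ [] = (Poly.word p ++ [Sym.eqz]).flatMap Sym.code
      rw [List.append_nil, List.flatMap_append, serTok, serPoly_eq]
      rfl
    | pos p =>
      change serTok (1, List.map Mono.raw p) ++ [] = (Poly.word p ++ [Sym.pos]).flatMap Sym.code
      rw [List.append_nil, List.flatMap_append, serTok, serPoly_eq]
      rfl
    | not φ ih =>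
      change (φ.toks ++ [(2, [])]).flatMap serTok = (φ.word ++ [Sym.not]).flatMap Sym.code
      simp only at ih
      rw [List.flatMap_append, ih, List.flatMap_append]
      rfl
    | and φ ψ ih1 ih2 =>
      change (φ.toks ++ ψ.toks ++ [(3, [])]).flatMap serTok =
        (φ.word ++ ψ.word ++ [Sym.and]).flatMap Sym.code
      simp only at ih1 ih2
      rw [List.flatMap_append, List.flatMap_append, ih1, ih2, List.flatMap_append,
        List.flatMap_append]
      rfl
    | or φ ψ ih1 ih2 =>
      change (φ.toks ++ ψ.toks ++ [(4, [])]).flatMap serTok =
        (φ.word ++ ψ.word ++ [Sym.or]).flatMap Sym.code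
      simp only at ih1 ih2
      rw [List.flatMap_append, List.flatMap_append, ih1, ih2, List.flatMap_append,
        List.flatMap_append]
      rfl

end Vale.Agent.P337
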