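import Mathlib
import Vale.Agent.Lib.P337.Etr.Defs

/-!
P337, reduction of ETR: the system of equations.
-/

namespace Vale.Agent.P337

open Vale.Agent.Lib.Common.PolyTime

theorem sys_eval_mono (N : ℕ) (m : IMono) (x : Fin N → ℝ) (X : ℕ → ℝ)
    (hX : ∀ i : Fin N, X i = x i) :
    MvPolynomial.eval x (toR (IMono.toMv N m))
      = (IMono.coef m : ℝ) * ∏ i ∈ Finset.range N, X i ^ m.2.getD i 0 := by
  unfold IMono.toMv toR
  rw [MvPolynomial.map_monomial, MvPolynomial.eval_monomial]
  rw [Finset.prod_range]
  congr 1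
  rw [Finsupp.prod_fintype _ _ (fun i => pow_zero _)]
  exact Finset.prod_congr rfl fun i _ => by rw [hX i]; rfl

theorem sys_eval_poly (N : ℕ) (q : IPoly) (x : Fin N → ℝ) (X : ℕ → ℝ)
    (hX : ∀ i : Fin N, X i = x i) :
    MvPolynomial.eval x (toR (IPoly.toMv N q))
      = (q.map fun m => (IMono.coef m : ℝ) * ∏ i ∈ Finset.range N, X i ^ m.2.getD i 0).sum := by
  unfold IPoly.toMv
  induction q with
  | nil => simp [toR]
  | cons m q ih =>
    rw [List.map_cons, List.sum_cons, List.map_cons, List.sum_cons, ← ih, ← sys_eval_mono N m x X hX]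
    simp [toR]

theorem sys_prod_ext (X : ℕ → ℝ) (e : List ℕ) (N : ℕ) (h : e.length ≤ N) :
    ∏ i ∈ Finset.range N, X i ^ e.getD i 0 = ∏ i ∈ Finset.range e.length, X i ^ e.getD i 0 := by
  symm
  apply Finset.prod_subset
  · intro i hi
    rw [Finset.mem_range] at hi ⊢
    omega
  · intro i _ hi
    rw [Finset.mem_range, not_lt] at hi
    rw [List.getD_eq_default _ _ hi, pow_zero]

theorem sys_mono_eval (m : RMono) (X : ℕ → ℝ) (N : ℕ) (h : m.2.length ≤ N) :
    Mono.eval (RMono.mono m) X
      = (if m.1.1 then -1 else 1) * (bval m.1.2 : ℝ) * ∏ i ∈ Finset.range N, X i ^ m.2.getD i 0 := by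
  rw [sys_prod_ext X m.2 N h]
  rfl

theorem sys_poly_eval (p : RPoly) (X : ℕ → ℝ) (N : ℕ) (h : ∀ m ∈ p, m.2.length ≤ N) :
    RPoly.eval p X = (p.map fun m : RMono => (if m.1.1 then -1 else 1) * (bval m.1.2 : ℝ) *
      ∏ i ∈ Finset.range N, X i ^ m.2.getD i 0).sum := by
  unfold RPoly.eval Poly.eval
  rw [List.map_map]
  congr 1
  apply List.map_congr_left
  intro m hm
  exact sys_mono_eval m X N (h m hm)

theorem sys_padE (n a : ℕ) (e : List ℕ) (h : e.length ≤ n) (i : ℕ) :
    (padE n a e).getD i 0 = if i < n then e.getD i 0 else if i = n + a then 2 else 0 := by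
  unfold padE
  have hl : ((e ++ List.replicate n 0).take n).length = n := by
    rw [List.length_take, List.length_append, List.length_replicate]
    omega
  rw [List.append_assoc]
  by_cases hi : i < n
  · rw [if_pos hi, List.getD_append _ _ _ _ (by rw [hl]; exact hi)]
    rw [List.getD_eq_getElem?_getD, List.getElem?_take_of_lt hi, ← List.getD_eq_getElem?_getD]
    by_cases h2 : i < e.length
    · rw [List.getD_append _ _ _ _ h2]
    · rw [not_lt] at h2
      rw [List.getD_append_right _ _ _ _ h2, List.getD_eq_default _ _ h2]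
      rw [List.getD_eq_getElem?_getD, List.getElem?_replicate]
      split_ifs <;> rfl
  · rw [if_neg hi]
    rw [not_lt] at hi
    rw [List.getD_append_right _ _ _ _ (by rw [hl]; exact hi), hl]
    by_cases h2 : i = n + a
    · rw [if_pos h2, h2]
      rw [List.getD_append_right _ _ _ _ (by rw [List.length_replicate]; omega)]
      simp
    · rw [if_neg h2]
      by_cases h3 : i - n < a
      · rw [List.getD_append _ _ _ _ (by rw [List.length_replicate]; exact h3)]
        rw [List.getD_eq_getElem?_getD, List.getElem?_replicate]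
        split_ifs <;> rfl
      · rw [List.getD_eq_default]
        rw [List.length_append, List.length_replicate]
        simp only [List.length_cons, List.length_nil]
        omega

theorem sys_padE_prod (n a N : ℕ) (e : List ℕ) (h : e.length ≤ n) (hN : n + a < N) (X : ℕ → ℝ) :
    ∏ i ∈ Finset.range N, X i ^ (padE n a e).getD i 0
      = (∏ i ∈ Finset.range n, X i ^ e.getD i 0) * X (n + a) ^ 2 := by
  have h1 : ∏ i ∈ Finset.range N, X i ^ (padE n a e).getD i 0
      = (∏ i ∈ Finset.range n, X i ^ (padE n a e).getD i 0)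
        * ∏ i ∈ Finset.range (N - n), X (n + i) ^ (padE n a e).getD (n + i) 0 := by
    rw [← Finset.prod_range_add, Nat.add_sub_cancel' (by omega)]
  rw [h1]
  congr 1
  · apply Finset.prod_congr rfl
    intro i hi
    rw [sys_padE n a e h, if_pos (Finset.mem_range.mp hi)]
  · rw [Finset.prod_eq_single a]
    · rw [sys_padE n a e h, if_neg (by omega), if_pos rfl]
    · intro i _ hia
      rw [sys_padE n a e h, if_neg (by omega), if_neg (by omega), pow_zero]
    · intro ha
      exact absurd (Finset.mem_range.mpr (by omega)) ha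

theorem sys_le_nvars (ps : List RPoly) (p : RPoly) (hp : p ∈ ps) (m : RMono) (hm : m ∈ p) :
    m.2.length ≤ nvars ps := by
  unfold nvars
  have h1 : m.2.length ≤ (p.map fun m : RMono => m.2.length).sum :=
    List.single_le_sum (by intro x _; exact Nat.zero_le x) _ (List.mem_map.mpr ⟨m, hm, rfl⟩)
  have h2 : (p.map fun m : RMono => m.2.length).sum
      ≤ (ps.map fun p => (p.map fun m : RMono => m.2.length).sum).sum :=
    List.single_le_sum (by intro x _; exact Nat.zero_le x) _ (List.mem_map.mpr ⟨p, hp, rfl⟩)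
  exact h1.trans h2

theorem sys_eqn_eval (n N a s : ℕ) (p : RPoly) (hp : ∀ m ∈ p, m.2.length ≤ n) (hN : n + a < N)
    (x : Fin N → ℝ) (X : ℕ → ℝ) (hX : ∀ i : Fin N, X i = x i) :
    MvPolynomial.eval x (toR (IPoly.toMv N (eqn n a s p)))
      = if s = 0 then RPoly.eval p X
        else -1 + (if s = 1 then 1 else -1) * RPoly.eval p X * X (n + a) ^ 2 := by
  rw [sys_eval_poly N _ x X hX]
  unfold eqn
  by_cases hs : s = 0
  · rw [if_pos hs, if_pos hs, sys_poly_eval p X N (fun m hm => (hp m hm).trans (by omega)),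
      List.map_map]
    congr 1
    apply List.map_congr_left
    intro m _
    simp only [Function.comp, IMono.coef]
    push_cast
    split_ifs <;> simp
  · rw [if_neg hs, if_neg hs, List.map_cons, List.sum_cons, List.map_map,
      sys_poly_eval p X n hp]
    have h0 : ((IMono.coef ((true, (⟨1⟩ : BNat)), []) : ℤ) : ℝ) *
        ∏ i ∈ Finset.range N, X i ^ (([] : List ℕ)).getD i 0 = -1 := by
      simp [IMono.coef]
    have h1 : (List.map ((fun m : IMono => ((IMono.coef m : ℤ) : ℝ) *
        ∏ i ∈ Finset.range N, X i ^ m.2.getD i 0) ∘ fun m : RMono =>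
          (((if s = 1 then m.1.1 else !m.1.1), (⟨bval m.1.2⟩ : BNat)), padE n a m.2)) p).sum
        = (if s = 1 then 1 else -1) * (List.map (fun m : RMono => (if m.1.1 then -1 else 1) *
          (bval m.1.2 : ℝ) * ∏ i ∈ Finset.range n, X i ^ m.2.getD i 0) p).sum * X (n + a) ^ 2 := by
      rw [← List.sum_map_mul_left, ← List.sum_map_mul_right]
      congr 1
      apply List.map_congr_left
      intro m hm
      simp only [Function.comp, IMono.coef]
      rw [sys_padE_prod n a N m.2 (hp m hm) hN X]
      push_cast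
      by_cases h1 : s = 1
      · simp only [h1, if_true]
        split_ifs <;> push_cast <;> ring
      · simp only [h1, if_false]
        cases m.1.1 <;> simp <;> ring
    rw [h0, h1]

/-- the system of equations expresses the sign conditions -/
theorem feas_sysT (ps : List RPoly) (σ : List ℕ) (h : σ.length = ps.length) :
    Feas (sysT ps σ) ↔ ∃ x : ℕ → ℝ, ∀ i < σ.length, sgnOK (σ.getD i 0) (RPoly.eval (ps.getD i []) x) := by
  have hmem : ∀ a < ps.length, ps.getD a [] ∈ ps := by
    intro a ha
    rw [List.getD_eq_getElem _ _ ha]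
    exact List.getElem_mem ha
  constructor
  · rintro ⟨x, hx⟩
    refine ⟨fun i => if hi : i < (sysT ps σ).1 then x ⟨i, hi⟩ else 0, fun a ha => ?_⟩
    have ha' : a < ps.length := by omega
    have h1 := hx (eqn (nvars ps) a (σ.getD a 0) (ps.getD a []))
      (List.mem_map.mpr ⟨a, List.mem_range.mpr ha', rfl⟩)
    rw [sys_eqn_eval (nvars ps) _ a (σ.getD a 0) (ps.getD a [])
      (fun m hm => sys_le_nvars ps _ (hmem a ha') m hm)
      (by change nvars ps + a < nvars ps + ps.length; omega) x
      (fun i => if hi : i < (sysT ps σ).1 then x ⟨i, hi⟩ else 0)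
      (fun i => dif_pos i.2)] at h1
    set X : ℕ → ℝ := fun i => if hi : i < (sysT ps σ).1 then x ⟨i, hi⟩ else 0 with hXdef
    set v := RPoly.eval (ps.getD a []) X with hv
    unfold sgnOK
    by_cases h0 : σ.getD a 0 = 0
    · rw [if_pos h0] at h1 ⊢
      exact h1
    · rw [if_neg h0] at h1 ⊢
      have hsq : 0 ≤ X (nvars ps + a) ^ 2 := sq_nonneg _
      by_cases h2 : σ.getD a 0 = 1
      · rw [if_pos h2] at h1 ⊢
        by_contra hc
        rw [not_lt] at hc
        have := mul_nonpos_of_nonpos_of_nonneg hc hsq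
        linarith
      · rw [if_neg h2] at h1 ⊢
        by_contra hc
        rw [not_lt] at hc
        have := mul_nonneg hc hsq
        linarith
  · rintro ⟨X0, hX0⟩
    set X : ℕ → ℝ := fun i => if i < nvars ps then X0 i
      else 1 / √|RPoly.eval (ps.getD (i - nvars ps) []) X0| with hX
    refine ⟨fun i => X i, fun q hq => ?_⟩
    obtain ⟨a, ha, rfl⟩ := List.mem_map.mp hq
    rw [List.mem_range] at ha
    have hle : ∀ m ∈ ps.getD a [], m.2.length ≤ nvars ps :=
      fun m hm => sys_le_nvars ps _ (hmem a ha) m hm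
    rw [sys_eqn_eval (nvars ps) _ a (σ.getD a 0) (ps.getD a []) hle
      (by change nvars ps + a < nvars ps + ps.length; omega) (fun i => X i) X (fun i => rfl)]
    have he : RPoly.eval (ps.getD a []) X = RPoly.eval (ps.getD a []) X0 := by
      rw [sys_poly_eval _ X _ hle, sys_poly_eval _ X0 _ hle]
      congr 1
      apply List.map_congr_left
      intro m _
      congr 1
      apply Finset.prod_congr rfl
      intro i hi
      have : X i = X0 i := if_pos (Finset.mem_range.mp hi)
      rw [this]
    rw [he]
    have hy : X (nvars ps + a) = 1 / √|RPoly.eval (ps.getD a []) X0| := by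
      simp only [hX]
      rw [if_neg (by omega), Nat.add_sub_cancel_left]
    have hs := hX0 a (by omega)
    unfold sgnOK at hs
    by_cases h0 : σ.getD a 0 = 0
    · rw [if_pos h0] at hs ⊢
      exact hs
    · rw [if_neg h0] at hs ⊢
      rw [hy, div_pow, one_pow, Real.sq_sqrt (abs_nonneg _)]
      by_cases h2 : σ.getD a 0 = 1
      · rw [if_pos h2] at hs ⊢
        rw [abs_of_pos hs]
        field_simp
        norm_num
      · rw [if_neg h2] at hs ⊢
        rw [abs_of_neg hs]
        have : RPoly.eval (ps.getD a []) X0 ≠ 0 := hs.ne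
        field_simp
        norm_num

end Vale.Agent.P337
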