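import Mathlib
import Vale.Agent.Lib.P337.Etr.Defs
import Vale.Agent.Lib.Common.PolyTime.FoldTools

/-!
P337, reduction of ETR: well-formed lists of tokens.
-/

namespace Vale.Agent.P337

open Vale.Agent.Lib.Common.PolyTime

/-- one step of the check: `0` means failure, otherwise height of the stack plus one -/
def wfStep (s : ℕ) (t : Tok) : ℕ :=
  if s = 0 then 0
  else if t.1 < 2 then s + 1
  else if t.2 = [] then
    (if t.1 = 2 then (if 2 ≤ s then s else 0)
      else if t.1 < 5 then (if 3 ≤ s then s - 1 else 0) else 0)
  else 0

theorem wf_raw_mono (q : RPoly) : List.map Mono.raw (q.map RMono.mono) = q := by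
  rw [List.map_map]
  have h : (Mono.raw ∘ RMono.mono) = id := by
    funext m
    rfl
  rw [h, List.map_id]

theorem wf_fold_toks (φ : Fml) : ∀ s, s ≠ 0 → φ.toks.foldl wfStep s = s + 1 := by
  induction φ with
  | eqz p =>
    intro s hs
    simp [Fml.toks, wfStep, hs]
  | pos p =>
    intro s hs
    simp [Fml.toks, wfStep, hs]
  | not φ ih =>
    intro s hs
    have h2 : 2 ≤ s + 1 := by omega
    simp [Fml.toks, ih s hs, wfStep, h2]
  | and φ ψ ih1 ih2 =>
    intro s hs
    have h2 : 3 ≤ s + 1 + 1 := by omega
    simp [Fml.toks, ih1 s hs, ih2 (s + 1) (by omega), wfStep, h2]
  | or φ ψ ih1 ih2 =>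
    intro s hs
    have h2 : 3 ≤ s + 1 + 1 := by omega
    simp [Fml.toks, ih1 s hs, ih2 (s + 1) (by omega), wfStep, h2]

theorem wf_fold_spec (T : List Tok) : T.foldl wfStep 1 ≠ 0 →
    ∃ l : List Fml, l.length + 1 = T.foldl wfStep 1 ∧ l.flatMap Fml.toks = T := by
  induction T using List.reverseRecOn with
  | nil =>
    intro _
    exact ⟨[], rfl, rfl⟩
  | append_singleton T t ih =>
    intro hne
    rw [List.foldl_append, List.foldl_cons, List.foldl_nil] at hne ⊢
    set s := T.foldl wfStep 1 with hs
    have hs0 : s ≠ 0 := by
      intro h
      rw [h] at hne
      exact hne rfl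
    obtain ⟨l, hl, hT⟩ := ih hs0
    obtain ⟨n, q⟩ := t
    unfold wfStep at hne ⊢
    rw [if_neg hs0] at hne ⊢
    dsimp only at hne ⊢
    by_cases h2 : n < 2
    · rw [if_pos h2]
      have h01 : n = 0 ∨ n = 1 := by omega
      rcases h01 with rfl | rfl
      · refine ⟨l ++ [Fml.eqz (q.map RMono.mono)], ?_, ?_⟩
        · rw [List.length_append, List.length_singleton]
          omega
        · rw [List.flatMap_append, hT, List.flatMap_singleton, Fml.toks, wf_raw_mono]
      · refine ⟨l ++ [Fml.pos (q.map RMono.mono)], ?_, ?_⟩
        · rw [List.length_append, List.length_singleton]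
          omega
        · rw [List.flatMap_append, hT, List.flatMap_singleton, Fml.toks, wf_raw_mono]
    · rw [if_neg h2] at hne ⊢
      by_cases hq : q = []
      · rw [if_pos hq] at hne ⊢
        subst hq
        by_cases h3 : n = 2
        · rw [if_pos h3] at hne ⊢
          subst h3
          by_cases h4 : 2 ≤ s
          · rw [if_pos h4]
            rcases List.eq_nil_or_concat l with h | ⟨l', φ, h⟩
            · subst h
              rw [List.length_nil] at hl
              omega
            · subst h
              rw [List.concat_eq_append] at hT hl
              rw [List.length_append, List.length_singleton] at hl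
              refine ⟨l' ++ [Fml.not φ], ?_, ?_⟩
              · rw [List.length_append, List.length_singleton]
                omega
              · rw [← hT, List.flatMap_append, List.flatMap_append, List.flatMap_singleton,
                  List.flatMap_singleton, Fml.toks, List.append_assoc]
          · rw [if_neg h4] at hne
            exact absurd rfl hne
        · rw [if_neg h3] at hne ⊢
          by_cases h5 : n < 5
          · rw [if_pos h5] at hne ⊢
            by_cases h4 : 3 ≤ s
            · rw [if_pos h4]
              rcases List.eq_nil_or_concat l with h | ⟨l', ψ, h⟩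
              · subst h
                rw [List.length_nil] at hl
                omega
              · subst h
                rw [List.concat_eq_append] at hT hl
                rw [List.length_append, List.length_singleton] at hl
                rcases List.eq_nil_or_concat l' with h | ⟨l'', φ, h⟩
                · subst h
                  rw [List.length_nil] at hl
                  omega
                · subst h
                  rw [List.concat_eq_append] at hT hl
                  rw [List.length_append, List.length_singleton] at hl
                  have h34 : n = 3 ∨ n = 4 := by omega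
                  rcases h34 with rfl | rfl
                  · refine ⟨l'' ++ [Fml.and φ ψ], ?_, ?_⟩
                    · rw [List.length_append, List.length_singleton]
                      omega
                    · rw [← hT]
                      simp [List.flatMap_append, Fml.toks]
                  · refine ⟨l'' ++ [Fml.or φ ψ], ?_, ?_⟩
                    · rw [List.length_append, List.length_singleton]
                      omega
                    · rw [← hT]
                      simp [List.flatMap_append, Fml.toks]
            · rw [if_neg h4] at hne
              exact absurd rfl hne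
          · rw [if_neg h5] at hne
            exact absurd rfl hne
      · rw [if_neg hq] at hne
        exact absurd rfl hne

theorem wfStep_le (s : ℕ) (t : Tok) : wfStep s t ≤ s + 1 := by
  unfold wfStep
  split_ifs <;> omega

theorem PT_wf : PT (fun T : List Tok => decide (T.foldl wfStep 1 = 2)) := by
  apply PT.decide_eq _ (PT.const 2)
  refine PT.foldl_add (step := fun _ : List Tok => wfStep) (l := fun T : List Tok => T)
    (init := fun _ => 1) (h := fun (_ : List Tok) (_ : Tok) => (1 : ℕ)) ?_ PT.id (PT.const 1)
    (PT.const 1) ?_
  · unfold wfStep
    fun_prop
  · intro a s b _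
    have h := wfStep_le s b
    rw [sz_nat, sz_nat, sz_nat]
    omega

/-- well-formed lists of tokens can be recognized in polynomial time -/
theorem exists_wf : ∃ wf : List Tok → Bool, PT wf ∧
    ∀ T, (wf T = true ↔ ∃ φ : Fml, φ.toks = T) := by
  refine ⟨fun T => decide (T.foldl wfStep 1 = 2), PT_wf, fun T => ?_⟩
  rw [decide_eq_true_iff]
  constructor
  · intro h
    obtain ⟨l, hl, hT⟩ := wf_fold_spec T (by omega)
    have h1 : l.length = 1 := by omega
    obtain ⟨φ, rfl⟩ := List.length_eq_one_iff.mp h1
    refine ⟨φ, ?_⟩
    rw [← hT, List.flatMap_singleton]
  · rintro ⟨φ, rfl⟩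
    exact wf_fold_toks φ 1 one_ne_zero

end Vale.Agent.P337
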