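import Mathlib
import Vale.Agent.Lib.P337.Etr.Parse
import Vale.Agent.Lib.P337.Etr.Ser
import Vale.Agent.Lib.P337.Etr.Wf
import Vale.Agent.Lib.P337.Etr.Sem
import Vale.Agent.Lib.P337.Etr.Sys
import Vale.Agent.Lib.P337.Etr.PTs
import Vale.Agent.Lib.P337.Cx.Feas

/-!
P337: ETR is in the (typed) counting hierarchy.
-/

namespace Vale.Agent.P337

open Vale.Agent.Lib.Common.PolyTime

/-- sign vectors from bit strings, two bits for a sign -/
def decSg (m : ℕ) (y : List Bool) : List ℕ :=
  (List.range m).map fun i => if y.getD (2 * i) false = true then 1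
    else if y.getD (2 * i + 1) false = true then 2 else 0

theorem decSg_length (m : ℕ) (y : List Bool) : (decSg m y).length = m := by
  simp [decSg]

theorem decSg_lt (m : ℕ) (y : List Bool) : ∀ s ∈ decSg m y, s < 3 := by
  intro s hs
  simp only [decSg, List.mem_map] at hs
  obtain ⟨i, -, rfl⟩ := hs
  split_ifs <;> omega

theorem exists_decSg (σ : List ℕ) (h : ∀ s ∈ σ, s < 3) :
    ∃ y : List Bool, y.length = 2 * σ.length ∧ decSg σ.length y = σ := by
  refine ⟨(List.range (2 * σ.length)).map fun k =>
    if k % 2 = 0 then decide (σ.getD (k / 2) 0 = 1) else decide (σ.getD (k / 2) 0 = 2),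
    by simp, ?_⟩
  apply List.ext_getElem (by simp [decSg])
  intro i h1 h2
  simp only [decSg, List.length_map, List.length_range] at h1
  have ha : 2 * i < 2 * σ.length := by omega
  have hb : 2 * i + 1 < 2 * σ.length := by omega
  have hc : (2 * i + 1) / 2 = i := by omega
  have hd : (2 * i + 1) % 2 ≠ 0 := by omega
  have hv : σ[i] < 3 := h _ (List.getElem_mem h2)
  simp only [decSg, List.getElem_map, List.getElem_range, List.getD_eq_getElem?_getD,
    List.getElem?_map, List.getElem?_range ha, List.getElem?_range hb, Option.map_some,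
    Option.getD_some, Nat.mul_mod_right, if_true, hd, if_false, hc,
    Nat.mul_div_cancel_left i (by norm_num : 0 < 2), List.getElem?_eq_getElem h2,
    decide_eq_true_eq]
  interval_cases σ[i] <;> simp

theorem PT_decSg {α : Type} [TEnc α] {m : α → ℕ} {y : α → List Bool} (hm : PT m) (hy : PT y) :
    PT (fun a => decSg (m a) (y a)) := by
  unfold decSg
  have hy' : PT (fun p : α × ℕ => y p.1) := PT.comp (f := y) hy (PT.fst PT.id)
  refine PT.map (f := fun a i => if (y a).getD (2 * i) false = true then 1
    else if (y a).getD (2 * i + 1) false = true then 2 else 0) ?_ (PT.range hm)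
  have h1 : PT (fun p : α × ℕ => (y p.1).getD (2 * p.2) false) :=
    PT.getD hy' (PT.mul (PT.const 2) (PT.snd PT.id)) (PT.const false)
  have h2 : PT (fun p : α × ℕ => (y p.1).getD (2 * p.2 + 1) false) :=
    PT.getD hy' (PT.succ (PT.mul (PT.const 2) (PT.snd PT.id))) (PT.const false)
  exact PT.ite (PT.decide_eq h1 (PT.const true)) (PT.const 1)
    (PT.ite (PT.decide_eq h2 (PT.const true)) (PT.const 2) (PT.const 0))

theorem CHp_ETR : CHp (fun w : List Bool => w ∈ ETR) := by
  obtain ⟨parse, hparse, hp⟩ := exists_parse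
  obtain ⟨ser, hser, hs⟩ := exists_ser
  obtain ⟨wf, hwf, hw⟩ := exists_wf
  have key : ∀ w : List Bool, (wf (parse w) = true ∧ (ser (parse w) = w ∧
      ∃ y : List Bool, y.length = 2 * (atomsT (parse w)).length ∧
        (evT (parse w) (decSg (atomsT (parse w)).length y) = true ∧
          Feas (sysT (atomsT (parse w)) (decSg (atomsT (parse w)).length y))))) ↔ w ∈ ETR := by
    intro w
    constructor
    · rintro ⟨h1, h2, y, -, h4, h5⟩
      obtain ⟨φ, hφ⟩ := (hw _).1 h1
      rw [← hφ] at h2 h4 h5
      rw [hs] at h2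
      have hlen := decSg_length (atomsT φ.toks).length y
      refine ⟨φ, h2, (sat_iff φ).2 ⟨_, hlen, decSg_lt _ _, ?_, ?_⟩⟩
      · rw [← evT_toks φ _ hlen.symm.le]
        exact h4
      · exact (feas_sysT _ _ hlen).1 h5
    · rintro ⟨φ, hφ, hsat⟩
      obtain ⟨σ, hl, hlt, hev, hx⟩ := (sat_iff φ).1 hsat
      obtain ⟨y, hy, hd⟩ := exists_decSg σ hlt
      rw [← hφ, hp]
      refine ⟨(hw _).2 ⟨φ, rfl⟩, hs φ, y, ?_, ?_, ?_⟩
      · rw [hy, hl]
      · rw [← hl, hd, evT_toks φ σ hl.symm.le]
        exact hev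
      · rw [← hl, hd]
        exact (feas_sysT _ _ hl).2 hx
  refine CHp.congr ?_ key
  have hatoms : PT (fun w : List Bool => (atomsT (parse w)).length) :=
    PT.length (PT.comp (f := atomsT) PT_atomsT hparse)
  have hparse1 : PT (fun p : List Bool × List Bool => parse p.1) :=
    PT.comp (f := parse) hparse (PT.fst PT.id)
  have hsig : PT (fun p : List Bool × List Bool =>
      decSg (atomsT (parse p.1)).length p.2) :=
    PT_decSg (PT.comp (f := fun w : List Bool => (atomsT (parse w)).length) hatoms
      (PT.fst PT.id)) (PT.snd PT.id)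
  refine CHp.and (CHp.of_PT (PT.comp (f := wf) hwf hparse)) (CHp.and ?_ ?_)
  · exact CHp.of_decide (PT.decide_eq (PT.comp (f := ser) hser hparse) PT.id)
  · refine CHp.exists_str (PT.mul (PT.const 2) hatoms)
      (B := fun p : List Bool × List Bool =>
        evT (parse p.1) (decSg (atomsT (parse p.1)).length p.2) = true ∧
          Feas (sysT (atomsT (parse p.1)) (decSg (atomsT (parse p.1)).length p.2)))
      (CHp.and ?_ ?_)
    · exact CHp.of_PT (PT.comp (f := fun p : List Tok × List ℕ => evT p.1 p.2) PT_evT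
        (PT.pair hparse1 hsig))
    · exact CHp_Feas.pre (PT.comp (f := fun p : List RPoly × List ℕ => sysT p.1 p.2) PT_sysT
        (PT.pair (PT.comp (f := atomsT) PT_atomsT hparse1) hsig))

end Vale.Agent.P337
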